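import Vale.Agent.P150.Defs
import Vale.Agent.P150.Final
import Vale.Agent.P150S.Final
import Vale.Agent.P150C.Crit
import Vale.Agent.P150C.Typ

/-! Fast mixing below one half, polynomial slowing down at the critical point, and stretched exponential
slow mixing, from worst and from typical starts, above one. -/

namespace Vale.Agent.Results.P150.All

open Vale.Agent.P150 Filter Topology

theorem result :
    (∀ β : ℝ, 0 ≤ β → β < 1 / 2 →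
      ∃ C c : ℝ, 0 < c ∧ Tendsto (fun n : ℕ => disorder n {g : Pair n → ℝ |
        ¬ (tmix β g ≤ C * Real.log n ∧ (∀ t, C * Real.log n ≤ t → ∀ x, tv β g t x ≤ 1 / 4) ∧
          c ≤ gap β g ∧ gap β g ≤ 1)}) atTop (𝓝 0)) ∧
    (∃ c : ℝ, 0 < c ∧ Tendsto (fun n : ℕ => disorder n {g : Pair n → ℝ |
      ¬ (c * (n / Real.log n) ^ (2 / 3 : ℝ) ≤ tmix 1 g ∧
        (∀ t, 0 ≤ t → t ≤ c * (n / Real.log n) ^ (2 / 3 : ℝ) → ∃ x, 1 / 4 < tv 1 g t x) ∧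
        0 < gap 1 g ∧ c * (n / Real.log n) ^ (2 / 3 : ℝ) ≤ 1 / gap 1 g)}) atTop (𝓝 0)) ∧
    (∀ β : ℝ, 1 < β → Tendsto (fun n : ℕ => disorder n {g : Pair n → ℝ |
      ¬ (Real.exp ((n : ℝ) ^ (1 / 70000 : ℝ)) ≤ tmix β g ∧
        (∀ t, 0 ≤ t → t ≤ Real.exp ((n : ℝ) ^ (1 / 70000 : ℝ)) → ∃ x, 1 / 4 < tv β g t x) ∧
        0 < gap β g ∧ Real.exp ((n : ℝ) ^ (1 / 70000 : ℝ)) ≤ 1 / gap β g)}) atTop (𝓝 0)) ∧
    (∀ β : ℝ, 1 < β → Tendsto (fun n : ℕ => disorder n {g : Pair n → ℝ |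
      ¬ (∑ x, Set.indicator
          {x | ∃ t, 0 ≤ t ∧ t ≤ Real.exp ((n : ℝ) ^ (1 / 70000 : ℝ)) ∧ tv β g t x ≤ 1 / 4}
          (gibbs β g) x ≤ Real.exp (-(n : ℝ) ^ (1 / 70000 : ℝ) / 2))}) atTop (𝓝 0)) :=
  ⟨main, Vale.Agent.P150C.crit, Vale.Agent.P150S.slow, Vale.Agent.P150C.slow_typ⟩

end Vale.Agent.Results.P150.All
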