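import Vale.Agent.P150.Defs
import Vale.Agent.P150S.Final

/-! Stretched exponential slow mixing of the SK dynamics for every inverse temperature above one. -/

namespace Vale.Agent.Results.P150.Slow

open Vale.Agent.P150 Filter Topology

theorem result (β : ℝ) (hβ : 1 < β) : Tendsto (fun n : ℕ => disorder n {g : Pair n → ℝ |
    ¬ (Real.exp ((n : ℝ) ^ (1 / 70000 : ℝ)) ≤ tmix β g ∧
      (∀ t, 0 ≤ t → t ≤ Real.exp ((n : ℝ) ^ (1 / 70000 : ℝ)) → ∃ x, 1 / 4 < tv β g t x) ∧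
      0 < gap β g ∧ Real.exp ((n : ℝ) ^ (1 / 70000 : ℝ)) ≤ 1 / gap β g)}) atTop (𝓝 0) :=
  Vale.Agent.P150S.slow β hβ

end Vale.Agent.Results.P150.Slow
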